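import Vale.Agent.P339.Stmt
import Vale.Agent.P339.Final
import Vale.Agent.P339.Main
import Vale.Agent.P325.BasePCP
import Vale.Agent.P325.BaseRound
import Vale.Agent.P325.Pre
import Vale.Agent.P325.Pow
import Vale.Agent.P325.Alph
import Vale.Agent.P325.Rep
import Vale.Agent.P325.RepLC
import Vale.Agent.P325.Sse

namespace Vale.Agent.Results.P339.A_full

open Vale.Agent.P325 Vale.Agent.P339

/-- The 2-to-1 games conjecture with perfect completeness: a polynomial-time reduction from 3-SAT. -/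
theorem result (δ : ℝ) (hδ : 0 < δ) (_hδ1 : δ < 1) :
    ∃ q : ℕ, 2 ≤ q ∧ ∃ (f : CNF → Game q)
      (M : Turing.TM2ComputableInPolyTime codeCNF (codeGame q) f),
      (∀ j, Finite (M.tm.Γ j)) ∧
      ∀ φ : CNF, f φ ≠ [] ∧ TwoToOne (f φ) ∧ (Sat φ → value (f φ) = 1) ∧
        (¬ Sat φ → value (f φ) ≤ δ) :=
  final2 (two (lc rep (pcp (round pre pow alph))) sse) δ hδ

end Vale.Agent.Results.P339.A_full
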